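import Vale.Agent.P106.U.H833.NStep
import Vale.Agent.P106.U.S5.Run
import Vale.Agent.P106.U.H812.NumR

/-!
# P106 / U / H518 : the numbers of the N-step (helper518)

* `numN_gen` : 833's `NumN` for the run with a low margin `μ`, from the record `RunOk`; any accuracy `g`, margins `pv`, `Mu`,
  later cap `bS` (any number with `m (b1 + B) ≤ bS`), bound `Lb` of the distance, width `Wd`.
* **`numN_rec`** : the same for 812's numbers `gS M m`, `muS c M m`, `2 muS`, `MuS c M` at scale `M` (`c0 = 51`).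
* `reg_of` : an index outside the exceptional levels is not mixed with the width `Wd < B` (`regS`, `reg` of `F2`).
* `bw_of`, `bwV_of` : there is room up to the later cap in the kappa regime.
-/

set_option autoImplicit false

namespace Vale.Agent.P106.U.H518

open Filter
open Vale.Agent.P127 Vale.Agent.P106.W Vale.Agent.P106.K
open Vale.Agent.P106.U.S3 (Run)
open Vale.Agent.P106.U.S5
open Vale.Agent.P106.U.H101 (low)
open Vale.Agent.P106.U.H812 (muS MuS mu8 Nx two_K)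
open Vale.Agent.P106.U.H833 (NumN isKap isPhi mixed kN fN lev_aux)

variable {σ : Cst} {ε : ℝ} {ρ : Thr} {m B : ℕ} {Ω : Type} [Fintype Ω] {Q : Law Ω} {l : Ω → Ry} {t : Ω → ℝ}
  {L h q r0 Rn : ℕ} {W : Ω → Cbx} {τ υ π : Type} {R : Run Ω τ υ} {p : Run.Num} {g' gU e κ₀ : ℝ} {a1 r1 : ℕ}

/-- **the numbers of the N-step** -/
theorem numN_gen (hρ : ρ.Ok) (H : RunOk σ ε ρ m B Q l t L h q r0 Rn W R p g' gU e κ₀ a1 r1)
    {cc c0 M Lb bS Wd g μ pv Mu Kr : ℕ}
    (hbS : R.m * (R.b1 + B) ≤ bS) (hcc : 800 ≤ cc) (hK : 2 * ρ.K ≤ 2 ^ c0) (hg : (M + 11) * m + 2 * c0 + 1 ≤ g)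
    (hμ : cc * (g + c0 + 1) ≤ μ) (hpv : μ ≤ pv) (hpB : pv ≤ m * B) (h8 : 8 * μ ≤ m * Mu) (hMB : Lb + Mu ≤ B)
    (h1W : M + 1 ≤ Wd) (h2W : Lb + Mu ≤ Wd) (hKr : ρ.J * Mu + Mu ≤ Kr) (o : Fin 7 → ℝ) :
    NumN (low R μ o) p ρ.K cc R.b1 M p.s c0 g pv bS Mu Wd Kr Lb := by
  have hm := H.hm
  have hm1 := H.ok.pth.m1
  have hlow := H.cap.low
  have htop := H.cap.top
  have hs := H.hs
  have hJ := H.hJ
  have hrm := H.rm
  have hr0 := H.hr0
  have e1 : R.m * (R.b1 + B) = R.m * R.b1 + R.m * B := Nat.mul_add _ _ _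
  have e2 : B ≤ R.m * B := Nat.le_mul_of_pos_left _ (by omega)
  have e3 : m * Mu ≤ m * B := Nat.mul_le_mul_left _ (by omega)
  rw [hm] at e1 e2 hbS
  have hMu2 : 2 ≤ Mu := by
    have f1 : m ≤ (M + 11) * m := Nat.le_mul_of_pos_left _ (by omega)
    have f2 : 800 * (g + c0 + 1) ≤ cc * (g + c0 + 1) := Nat.mul_le_mul_right _ hcc
    have f3 : m * 2 ≤ m * Mu := by omega
    exact Nat.le_of_mul_le_mul_left f3 (by omega)
  constructor
  · exact hcc
  · exact hρ.K1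
  · exact hK
  · show R.m * R.b1 ≤ p.B₁
    have : R.m * R.b1 ≤ R.m * (R.b1 + B) := Nat.mul_le_mul_left _ (Nat.le_add_right _ _)
    omega
  · show (M + p.s + 1) * R.m + 2 * c0 + 1 ≤ g
    rw [hm]
    have h1 : (M + p.s + 1) * m ≤ (M + 11) * m := Nat.mul_le_mul_right _ (by omega)
    omega
  · exact hμ
  · exact hpv
  · show R.m * R.b1 + 8 * μ ≤ bS
    rw [hm]
    omega
  · show R.m * R.b1 + pv ≤ bS
    rw [hm]
    omega
  · show 8 * μ ≤ R.m * Mu
    rw [hm]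
    exact h8
  · omega
  · show 8 * μ ≤ R.r0
    omega
  · omega
  · exact h1W
  · exact h2W
  · omega
  · rw [hJ]
    exact hKr

/-- **812's numbers** -/
theorem numN_rec (hρ : ρ.Ok) (H : RunOk σ ε ρ m B Q l t L h q r0 Rn W R p g' gU e κ₀ a1 r1) {cc c M Lb bS Wd Kr : ℕ}
    (hcc : 800 ≤ cc) (hc : 10 * cc ≤ 8 * c) (N : Nx ρ.K cc c M Lb m B) (hbS : R.m * (R.b1 + B) ≤ bS)
    (h1W : M + 1 ≤ Wd) (h2W : Lb + MuS c M ≤ Wd) (hKr : ρ.J * MuS c M + MuS c M ≤ Kr) (o : Fin 7 → ℝ) :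
    NumN (low R (muS c M m) o) p ρ.K cc R.b1 M p.s 51 (H812.gS M m) (2 * muS c M m) bS (MuS c M) Wd Kr Lb := by
  have hm1 := N.m1
  have hXm : m ≤ (M + 12) * m := Nat.le_mul_of_pos_left m (by omega)
  have h8 := mu8 c M m
  have hMB := N.B1
  have e3 : m * MuS c M ≤ m * B := Nat.mul_le_mul_left _ (by omega)
  refine numN_gen hρ H hbS hcc (two_K hρ) ?_ ?_ (by omega) (by omega) (le_of_eq h8) hMB h1W h2W hKr o
  · unfold H812.gS
    have h2 : (M + 12) * m = (M + 11) * m + m := by ring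
    omega
  · unfold H812.gS muS
    have h1 : 8 * ((M + 12) * m) + 51 + 1 ≤ 10 * ((M + 12) * m) := by omega
    calc cc * (8 * ((M + 12) * m) + 51 + 1) ≤ cc * (10 * ((M + 12) * m)) := Nat.mul_le_mul_left _ h1
      _ = 10 * cc * ((M + 12) * m) := by ring
      _ ≤ 8 * c * ((M + 12) * m) := Nat.mul_le_mul_right _ hc

theorem kap_absurd (hP : R.Path p) {Wd k : ℕ} (h2 : k ≤ R.n) (hk : isKap R R.b1 Wd k)
    (h : R.C.rf k ≤ R.m * R.b1 + R.C.rk k) : False := by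
  have hm1 := hP.m1
  obtain ⟨_, ⟨ck, ek⟩, ⟨cf, ef⟩⟩ := lev_aux hP k (by omega)
  have e1 : kN R k = ck := by
    unfold kN
    rw [ek, Nat.add_sub_cancel_left, Nat.mul_div_cancel_left _ hm1]
  have e2 : fN R k = cf := by
    unfold fN
    rw [ef, Nat.add_sub_cancel_left, Nat.mul_div_cancel_left _ hm1]
  unfold isKap at hk
  have h5 : R.m * (R.b1 + ck) < R.m * cf := Nat.mul_lt_mul_of_pos_left (by omega) hm1
  rw [Nat.mul_add] at h5
  rw [ek, ef] at h
  omega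

/-- **outside the exceptional levels no index is mixed** -/
theorem reg_of {Kc : ℝ} {bS bV : ℕ} {F : S3.Pf R π} {Vs Xs : Finset ℕ} (hP : R.Path p) (F2 : S3.F2 R p Kc B bS bV F Vs Xs)
    {Wd : ℕ} (hW : Wd < B) (k : ℕ) (h1 : 1 ≤ k) (h2 : k ≤ R.n) (hX : S3.lv R k ∉ Xs) :
    ¬ mixed R R.b1 Wd k ∧ (R.m * R.b1 + R.C.rk k < R.C.rf k → isKap R R.b1 Wd k) ∧
      (R.C.rf k ≤ R.m * R.b1 + R.C.rk k → isPhi R R.b1 Wd k) := by
  have hm1 := hP.m1
  obtain ⟨_, ⟨ck, ek⟩, ⟨cf, ef⟩⟩ := lev_aux hP k (by omega)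
  have e1 : kN R k = ck := by
    unfold kN
    rw [ek, Nat.add_sub_cancel_left, Nat.mul_div_cancel_left _ hm1]
  have e2 : fN R k = cf := by
    unfold fN
    rw [ef, Nat.add_sub_cancel_left, Nat.mul_div_cancel_left _ hm1]
  have key : R.m * (R.b1 + B) + R.C.rk k ≤ R.C.rf k ∨ R.C.rf k + 2 * (R.m * B) ≤ R.m * R.b1 + R.C.rk k := by
    by_cases hV : S3.lv R k ∈ Vs
    · rcases F2.reg k h1 h2 hV hX with h | h
      · left
        have := F2.loS
        have := F2.loV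
        omega
      · right
        have := F.l0 k
        omega
    · rcases F2.regS k h1 h2 hV hX with h | h
      · left
        have := F2.loS
        omega
      · right
        exact h
  have hcut : isKap R R.b1 Wd k ∧ R.m * R.b1 + R.C.rk k < R.C.rf k ∨
      isPhi R R.b1 Wd k ∧ R.C.rf k < R.m * R.b1 + R.C.rk k := by
    rcases key with h | h
    · left
      rw [ek, ef] at h
      have h3 : R.m * (R.b1 + B + ck) ≤ R.m * cf := by
        have : R.m * (R.b1 + B + ck) = R.m * (R.b1 + B) + R.m * ck := Nat.mul_add _ _ _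
        omega
      have h4 := Nat.le_of_mul_le_mul_left h3 hm1
      refine ⟨?_, ?_⟩
      · unfold isKap
        omega
      · have h5 : R.m * (R.b1 + ck) < R.m * cf := Nat.mul_lt_mul_of_pos_left (by omega) hm1
        rw [Nat.mul_add] at h5
        rw [ek, ef]
        omega
    · right
      rw [ek, ef] at h
      have h3 : R.m * (cf + 2 * B) ≤ R.m * (R.b1 + ck) := by
        have e3 : R.m * (cf + 2 * B) = R.m * cf + 2 * (R.m * B) := by ring
        have e4 : R.m * (R.b1 + ck) = R.m * R.b1 + R.m * ck := Nat.mul_add _ _ _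
        omega
      have h4 := Nat.le_of_mul_le_mul_left h3 hm1
      refine ⟨?_, ?_⟩
      · unfold isPhi
        omega
      · have h5 : R.m * cf < R.m * (R.b1 + ck) := Nat.mul_lt_mul_of_pos_left (by omega) hm1
        rw [Nat.mul_add] at h5
        rw [ek, ef]
        omega
  rcases hcut with ⟨h, h'⟩ | ⟨h, h'⟩
  · refine ⟨?_, fun _ => h, fun h'' => absurd h' (by omega)⟩
    unfold isKap at h
    unfold mixed
    omega
  · refine ⟨?_, fun h'' => absurd h' (by omega), fun _ => h⟩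
    unfold isPhi at h
    unfold mixed
    omega

/-- **room up to the later cap, old levels** -/
theorem bw_of {Kc : ℝ} {bS bV : ℕ} {F : S3.Pf R π} {Vs Xs : Finset ℕ} (hP : R.Path p) (F2 : S3.F2 R p Kc B bS bV F Vs Xs)
    {Wd : ℕ} (k : ℕ) (h1 : 1 ≤ k) (h2 : k ≤ R.n) (hV : S3.lv R k ∉ Vs) (hX : S3.lv R k ∉ Xs)
    (hk : isKap R R.b1 Wd k) : R.C.rk k + bS ≤ R.C.rf k := by
  rcases F2.regS k h1 h2 hV hX with h | h
  · omega
  · exfalso
    exact kap_absurd hP h2 hk (by omega)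

/-- **room up to the later cap, young levels** -/
theorem bwV_of {Kc : ℝ} {bS bV : ℕ} {F : S3.Pf R π} {Vs Xs : Finset ℕ} (hP : R.Path p) (F2 : S3.F2 R p Kc B bS bV F Vs Xs)
    {Wd : ℕ} (k : ℕ) (h1 : 1 ≤ k) (h2 : k ≤ R.n) (hV : S3.lv R k ∈ Vs) (hX : S3.lv R k ∉ Xs)
    (hk : isKap R R.b1 Wd k) : R.C.rk k + bV ≤ R.C.rf k := by
  rcases F2.reg k h1 h2 hV hX with h | h
  · omega
  · exfalso
    have := F.l0 k
    exact kap_absurd hP h2 hk (by omega)

end Vale.Agent.P106.U.H518
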