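import Vale.Agent.P106.U.H785.MtrFz
import Vale.Agent.P106.U.H384.MtrW

/-!
# P106 / U / H518 : the cells of the frozen path are functions of the letter of the base (helper518)

`D : Mtd`, `C := D.fz j k` (`a j = a k`, `k ∈ I`), `i` = any step of the frozen path with `a (max i j) ≤ A`; over 384's `LbM`, `Same`,
`LvM`, `BadW` at the step `k`.

* `okW_fz` : `OkW (D.fz j k) (8 K) A i F s`.
* `clo_fz` : close cells;  **`fz_of_W`** : `(D.fz j k).cell i b` is a function of the letter of the base outside `BadW` and `Bad`.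
* `hc_fz_lt` : entropy form given a letter `Y` which determines `Same` and the letter `lt k`.
-/

set_option autoImplicit false

namespace Vale.Agent.P106.U.H518.FzW

open Finset Vale.Agent.P127 Vale.Agent.P127.Stk
open Vale.Agent.P127.U.CellD (q2 rd Nb q2_pos q2_add q2_mul_pow q2_le rd_err fl1_fl1)
open Vale.Agent.P106.U.Cell
open Vale.Agent.P106.U.Cell.Pth (q2_le_one)
open Vale.Agent.P106.U.H785.Mtr
open Vale.Agent.P106.U.H384.MtrW
open Vale.Agent.P106.U.H364.N4 (OkW ClW cst one_le_cst cell_of_W hc_of_clo clo_of_W)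

variable {Ω π : Type} {D : Mtd Ω π} {K M : ℝ} {I : Set ℕ} {i j k b A h q : ℕ} {F : Fu} {s : ℝ} {ω ω' : Ω}

/-- **the label is admissible for the frozen path** -/
theorem okW_fz (h1 : 1 ≤ K) (hy : D.Hy K I ω) (hk : k ∈ I) (hw : LbM D K A k F s ω)
    (pv : F.cV (D.l ω) s = D.p ω * F.cN (D.l ω) s)
    (ts : |s - D.s (max i j) ω| ≤ q2 (D.a (max i j))) : OkW (D.fz j k) (8 * K) A i F s ω := by
  have K0 : 0 < K := by linarith
  have e1 := Mtd.cN_near h1 hy hk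
  have e2 := Mtd.ka_near D k ω
  have rl := Mtd.rr_le D k
  have q := q2_pos (D.rr k)
  have erk : q2 (D.rr k) ≤ q2 ((D.fz j k).rk i) := q2_le (Nat.sub_le_sub_right (D.hk (min_le_right _ _)) _)
  have eK : K * q2 (D.rr k) ≤ K * q2 ((D.fz j k).rk i) := mul_le_mul_of_nonneg_left erk K0.le
  have q3 : 0 < K * q2 ((D.fz j k).rk i) := mul_pos K0 (q2_pos _)
  have q4 : q2 (D.rr k) ≤ K * q2 (D.rr k) := by nlinarith
  have cN0 : 0 < F.cN (D.l ω) s := by
    by_contra hn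
    push Not at hn
    have := hw.n1
    nlinarith
  refine ⟨?_, ?_, ?_, ?_, ?_, ⟨?_, ?_, ?_⟩, ts⟩
  · show 1 ≤ 8 * K * F.cN (D.l ω) s
    have := hw.n1
    linarith
  · show F.cN (D.l ω) s ≤ 8 * K
    have := hw.n2
    linarith
  · have := hw.k1
    linarith
  · have := hw.a1
    linarith
  · show |F.cV (D.l ω) s - D.p ω * F.cN (D.l ω) s| ≤ 8 * K * q2 (D.rf (max i j))
    rw [pv, sub_self, abs_zero]
    have := q2_pos (D.rf (max i j))
    positivity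
  · have e := Fu.cN_sh ((D.fz j k).F i ω) (D.l ω) ((D.fz j k).s i ω) (s - (D.fz j k).s i ω)
    rw [add_sub_cancel] at e
    show |F.cN (D.l ω) s - (((D.fz j k).F i ω).sh (s - (D.fz j k).s i ω)).cN (D.l ω) s| ≤
      8 * K * q2 ((D.fz j k).rk i)
    rw [e, ← hw.un, abs_sub_comm]
    have e5 : ((D.fz j k).F i ω).cN (D.l ω) ((D.fz j k).s i ω) = D.cNL k ω := Mtd.fz_cN D j k i ω
    rw [e5]
    refine e1.trans ?_
    linarith
  · show |F.ka - (((D.fz j k).F i ω).ka - (s - (D.fz j k).s i ω) * ((D.fz j k).F i ω).al)| ≤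
      8 * K * q2 ((D.fz j k).rk i)
    rw [Mtd.fz_ka, Mtd.fz_al]
    have e3 : F.ka - (D.kaL k (D.lt k ω) - ((D.fz j k).s i ω - D.s k ω) * D.g k ω -
        (s - (D.fz j k).s i ω) * D.g k ω) =
        -(D.kaL k (D.lt k ω) - D.κ k ω) - (s - D.s k ω) * (D.al k ω - D.g k ω) := by
      rw [hw.ka]; ring
    have e4 : |(s - D.s k ω) * (D.al k ω - D.g k ω)| ≤ K * q2 (D.rr k) := by
      rw [abs_mul]
      calc |s - D.s k ω| * |D.al k ω - D.g k ω| ≤ q2 (D.a k) * |D.al k ω - D.g k ω| :=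
            mul_le_mul_of_nonneg_right hw.ts (abs_nonneg _)
        _ = |D.al k ω - D.g k ω| * q2 (D.a k) := mul_comm _ _
        _ ≤ K * q2 (D.rk k) := hy.ap k hk
        _ ≤ K * q2 (D.rr k) := mul_le_mul_of_nonneg_left rl K0.le
    rw [e3]
    refine (abs_sub _ _).trans ?_
    rw [abs_neg]
    linarith
  · show |F.al - ((D.fz j k).F i ω).al| * q2 A ≤ 8 * K * q2 ((D.fz j k).rk i)
    rw [Mtd.fz_al]
    have e5 := hw.ag
    have e6 : K * q2 (D.rk k) ≤ K * q2 (D.rr k) := mul_le_mul_of_nonneg_left rl K0.le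
    linarith

/-- levels of the step `i` of the frozen path -/
structure LvF (D : Mtd Ω π) (K M : ℝ) (i j k b A h q : ℕ) : Prop where
  l1 : 8 * D.μ ≤ b
  l2 : 8 * D.μ ≤ (D.fz j k).R i b
  a : D.a (max i j) ≤ A
  A : A + 2 * b ≤ h
  q : (D.fz j k).R i b + b ≤ q
  b : (8 * K) ^ 2 * M * q2 (2 * b) ≤ 1

/-- hypotheses of the frozen path at a point -/
structure AtF (D : Mtd Ω π) (K : ℝ) (I : Set ℕ) (A i j k : ℕ) (F : Fu) (s : ℝ) (ω : Ω) : Prop where
  hy : D.Hy K I ω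
  hw : LbM D K A k F s ω
  pv : F.cV (D.l ω) s = D.p ω * F.cN (D.l ω) s
  ts : |s - D.s (max i j) ω| ≤ q2 (D.a (max i j))

/-- **close cells of the frozen path** -/
theorem clo_fz (h1 : 1 ≤ K) (hM : 1 ≤ M) (hk : k ∈ I) (hj : D.a j = D.a k) (H : AtF D K I A i j k F s ω)
    (H' : AtF D K I A i j k F s ω') (L : LvF D K M i j k b A h q) (hs : Same D M k b h q F s ω ω')
    (et : fl1 (D.a (max i j)) (D.t ω) = fl1 (D.a (max i j)) (D.t ω')) (hl : D.lt k ω = D.lt k ω') :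
    (D.fz j k).Clo i b (cst (8 * K) M) ω ω' :=
  clo_of_W (C := D.fz j k) (i := i) (b := b) (K := 8 * K) (by linarith) hM (Mtd.fz_ok h1 H.hy hk hj)
    (Mtd.fz_ok h1 H'.hy hk hj) (okW_fz h1 H.hy hk H.hw H.pv H.ts) (okW_fz h1 H'.hy hk H'.hw H'.pv H'.ts)
    (Prod.ext hl et) hs.ev L.a L.A L.q L.b hs.cl

/-- **the cell of the frozen path is a function of the letter of the base** -/
theorem fz_of_W (h1 : 1 ≤ K) (hM : 1 ≤ M) (hk : k ∈ I) (hj : D.a j = D.a k) (H : AtF D K I A i j k F s ω)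
    (H' : AtF D K I A i j k F s ω') (Lk : LvM D K M k b A h q) (L : LvF D K M i j k b A h q)
    (hs : Same D M k b h q F s ω ω') (et : fl1 (D.a (max i j)) (D.t ω) = fl1 (D.a (max i j)) (D.t ω'))
    (hB : ¬ BadW D K M k b ω) (hB' : ¬ (D.fz j k).Bad (4 * cst (8 * K) M) i b ω) :
    (D.fz j k).cell i b ω = (D.fz j k).cell i b ω' :=
  (clo_fz h1 hM hk hj H H' L hs et (lt_of_W h1 hM H.hy H'.hy hk H.hw H'.hw Lk hs hB)).cell ⟨L.l1, L.l2⟩
    (one_le_cst (by linarith) hM) hB'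

/-- **entropy form**, given a letter `Y` which determines the data of the label and the letter `lt k` -/
theorem hc_fz_lt [Fintype Ω] (P : Law Ω) {T : Type*} (Y : Ω → T) {F : Ω → Fu} {s : Ω → ℝ} (h1 : 1 ≤ K) (hM : 1 ≤ M)
    (hk : k ∈ I) (hj : D.a j = D.a k) (H : ∀ ω, 0 < P.w ω → AtF D K I A i j k (F ω) (s ω) ω)
    (eF : ∀ ω ω', 0 < P.w ω → 0 < P.w ω' → Y ω = Y ω' → F ω = F ω' ∧ s ω = s ω')
    (L : LvF D K M i j k b A h q)
    (hs : ∀ ω ω', 0 < P.w ω → 0 < P.w ω' → Y ω = Y ω' → Same D M k b h q (F ω) (s ω) ω ω')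
    (et : ∀ ω ω', 0 < P.w ω → 0 < P.w ω' → Y ω = Y ω' →
      fl1 (D.a (max i j)) (D.t ω) = fl1 (D.a (max i j)) (D.t ω'))
    (hl : ∀ ω ω', 0 < P.w ω → 0 < P.w ω' → Y ω = Y ω' → D.lt k ω = D.lt k ω') :
    hc P ((D.fz j k).cell i b) Y ≤ (6 + 10 * Real.log (2 * ⌈3 * cst (8 * K) M⌉₊ + 3)) *
      Real.sqrt (prE P ((D.fz j k).Bad (4 * cst (8 * K) M) i b)) := by
  refine hc_of_clo P (D.fz j k) Y (one_le_cst (by linarith) hM) ⟨L.l1, L.l2⟩ fun ω ω' p p' e => ?_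
  have H' := H ω' p'
  rw [← (eF ω ω' p p' e).1, ← (eF ω ω' p p' e).2] at H'
  exact clo_fz h1 hM hk hj (H ω p) H' L (hs ω ω' p p' e) (et ω ω' p p' e) (hl ω ω' p p' e)

end Vale.Agent.P106.U.H518.FzW
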