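import Vale.Agent.P106.U.H518.NumNx
import Vale.Agent.P106.U.MIC.Stage
import Vale.Agent.P106.U.H652.Ev3

/-!
# P106 / U / H518 : numbers and regimes of the situation `St` (helper518)

* `numN_st` : 833's `NumN` for `s.Rl` (679's numbers of the scale `x`, `c0 = 60`).
* `numN_ev` : the numeric hypotheses hold in the order `m`, `B`.
* `μ_le_st` : the low margin is allowed.
-/

set_option autoImplicit false

namespace Vale.Agent.P106.U.H518

open Filter Vale.Agent.P127 Vale.Agent.P106.W Vale.Agent.P106.K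
open Vale.Agent.P106.U.S3 (Run)
open Vale.Agent.P106.U.S5 Vale.Agent.P106.U.MIC
open Vale.Agent.P106.U.H101 (low)
open Vale.Agent.P106.U.H823
open Vale.Agent.P106.U.H833 (NumN isKap isPhi mixed kN fN aN lev_aux)

variable {η : ℝ} {x : ℕ} {σ : Cst} {ε : ℝ} {ρ : Thr} {g : Gv} {m B h : ℕ}

theorem cN_ge : 800 ≤ cN := le_max_left _ _

/-- **the numbers of the N-step at the scale `x`** -/
theorem numN_st (hρ : ρ.Ok) (s : St η x σ ε ρ g m B h) {Lb Wd Kr : ℕ} (hm : 121 ≤ m) (hpB : 2 * μS x m ≤ m * B)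
    (hMB : Lb + MuS x ≤ B) (h1W : x + 1 ≤ Wd) (h2W : Lb + MuS x ≤ Wd) (hKr : ρ.J * MuS x + MuS x ≤ Kr) :
    NumN s.Rl s.pn ρ.K cN s.R.b1 x s.pn.s 60 (MIC.gS x m) (2 * μS x m) s.bS (MuS x) Wd Kr Lb := by
  have hXm : m ≤ (x + 12) * m := Nat.le_mul_of_pos_left m (by omega)
  have hK : 2 * ρ.K ≤ 2 ^ 60 := by
    have := hρ.K2
    norm_num at this ⊢
    linarith
  refine numN_gen hρ s.run s.f2.loS cN_ge hK ?_ ?_ (by omega) hpB ?_ hMB h1W h2W hKr s.o
  · unfold MIC.gS xS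
    have h2 : (x + 12) * m = (x + 11) * m + m := by ring
    have h3 : 8 * (x + 12) * m = 8 * ((x + 12) * m) := by ring
    omega
  · unfold MIC.gS μS cμ xS
    have h1 : 8 * (x + 12) * m + 60 + 1 ≤ 8000 * ((x + 12) * m) := by
      have h3 : 8 * (x + 12) * m = 8 * ((x + 12) * m) := by ring
      omega
    calc cN * (8 * (x + 12) * m + 60 + 1) ≤ cN * (8000 * ((x + 12) * m)) := Nat.mul_le_mul_left _ h1
      _ = 8000 * cN * (x + 12) * m := by ring
  · unfold μS MuS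
    exact le_of_eq (by ring)

/-- the numeric hypotheses (any bound `Lb`, any width `Wd`) -/
theorem numN_ev (x Lb Wd : ℕ) : H652.Ev3 fun m B _ => 121 ≤ m ∧ 2 * μS x m ≤ m * B ∧ μS x m ≤ m * B ∧ Lb + MuS x ≤ B ∧
    Wd < B := by
  refine H652.Ev3.of_B ?_
  filter_upwards [H652.ev_nat 121] with m h1
  filter_upwards [H652.ev_nat (2 * μS x m), H652.ev_nat (Lb + MuS x), H652.ev_nat (Wd + 1)] with B h2 h3 h4
  have h5 : B ≤ m * B := Nat.le_mul_of_pos_left _ (by omega)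
  exact ⟨h1, by omega, by omega, h3, h4⟩

/-- the low margin is allowed -/
theorem μ_le_st (s : St η x σ ε ρ g m B h) (hpB : μS x m ≤ m * B) : μS x m ≤ s.R.C.μ := by
  rw [s.run.hμ]
  exact hpB

end Vale.Agent.P106.U.H518
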